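import Vale.Agent.P122.Dir.Surface

open MeasureTheory
open scoped ENNReal Real

namespace Vale.Agent.Results.P122.DirectionalDataExtension

/-- The Fourier extension operator of a compact piece of the paraboloid maps bounded data having
an `L¹` modulus of continuity of order `s` in one variable only (merely measurable in the other)
into `L^p(ℝ³)` for `p > 3` and `p (2 + s) > 8`; for `s > 2/3` (in particular bounded data of
bounded variation in one direction) this is the whole conjectured range `p > 3`. -/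
theorem result : ∀ (p s R : ℝ), 3 < p → 0 < s → s ≤ 1 → 8 < p * (2 + s) →
    ∃ C : ℝ, 0 ≤ C ∧ ∀ (f : ℝ × ℝ → ℂ) (M A : ℝ), Measurable f → 0 ≤ A →
      (∀ ξ, ‖f ξ‖ ≤ M) → (∀ ξ : ℝ × ℝ, R < |ξ.1| ∨ R < |ξ.2| → f ξ = 0) →
      (∀ h : ℝ, ∫ ξ : ℝ × ℝ, ‖f (ξ.1, ξ.2 + h) - f ξ‖ ≤ A * |h| ^ s) →
      ∫⁻ z : (ℝ × ℝ) × ℝ, ENNReal.ofReal
        (‖∫ ξ : ℝ × ℝ, f ξ * (√(1 + 4 * (ξ.1 ^ 2 + ξ.2 ^ 2)) : ℝ)
          * Complex.exp ((2 * π * (z.1.1 * ξ.1 + z.1.2 * ξ.2 + z.2 * (ξ.1 ^ 2 + ξ.2 ^ 2)) : ℝ)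
            * Complex.I)‖ ^ p)
      ≤ ENNReal.ofReal (C * (M + A) ^ p) := by
  intro p s R hp hs0 hs1 hps
  obtain ⟨C, hC, h⟩ := Vale.Agent.P122.Dir.surface_bound p s R hp hs0 hs1 hps
  refine ⟨C, hC, fun f M A hm hA hM hsupp hmod =>
    le_trans (le_of_eq (lintegral_congr fun z => ?_)) (h f M A hm hA hM hsupp hmod)⟩
  rw [← ENNReal.ofReal_rpow_of_nonneg (norm_nonneg _) (by linarith), ofReal_norm]
  rfl

end Vale.Agent.Results.P122.DirectionalDataExtension
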